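import Vale.Agent.P287D.Sm.Ct
import Vale.Agent.P287D.Pr.Bpf
import Vale.Agent.P287D.Gs.Ful
import Vale.Agent.P287D.Sc.Xz
import Vale.Agent.P287D.Sc.Xa
import Vale.Agent.P287D.On.Fld

/-!
# P287D, block SM: no horizontal fixed part
-/

set_option linter.unusedVariables false

open Set

noncomputable section

namespace Vale.Agent.P287D.Sm

open Ea Sc

variable {n : ℕ} {K : Type} [Field K] [Algebra ℂ K] {H Y Γ ΓY Θ Λ X X' β R A : BD K} {E : Pl K}

/-- **SMQ**: small maps are isomorphisms at the plt points with canonical forms -/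
theorem smq (hK : FF K (n + 2)) (hY : Term (n + 1) Y Γ) (hO : On (n + 1) Y E)
    (hΘ : Dsc Y Θ) (hB : Bdy (n + 1) Y Θ) (hE : dsc (n + 2) Θ E = -1) {Q : Pl E.κ}
    (hQ : On n (res E Y) Q) (hk : -1 < dsc (n + 1) (adj (n + 1) E Θ) Q)
    {L : IntermediateField ℂ E.κ} (hL : FF L n) (hp : pg L n ≠ 0) (hor : Hor L Q) (hΛ : Smp Λ)
    (h : ∀ P, ¬ On (n + 1) Y P → Ex (n + 1) Λ P) (hX : Dsc Y X) (hX' : Dsc Λ X')
    (e : ∀ P, On (n + 1) Y P → X P = X' P) : res E X Q = res E X' Q := by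
  obtain ⟨R, a, f⟩ := exists_fc hK E Q hY.smp.car (toFinite {X, X'})
    (insert_subset hX.car (singleton_subset_iff.2 hX'.car))
  have k := sm uni' balg hK hY hΛ h
    (nu adh fld' hK hY.smp hY.big hO hΘ hB hE hQ hk f hL hp hor) hX hX' e
  rw [a.2 X (by simp), a.2 X' (by simp), e E hO] at k
  exact add_right_cancel k

/-- **SMN** -/
theorem smn (hT : Mm.TRM) (x : Xc H Γ Y ΓY β E) (hp : pg (fld (res E H)) 2 ≠ 0)
    (hΛ : Smp Λ) (h : ∀ P, ¬ On 3 Y P → Ex 3 Λ P) (hX : Dsc Y X) (hX' : Dsc Λ X')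
    (e : ∀ P, On 3 Y P → X P = X' P) {w : Pl E.κ} (hw : Hor (fld (res E H)) w) :
    res E X w = res E X' w := by
  have d : ∀ P, On 3 Y P → dsc 4 (ΓY + β) P = -E.δ P := fun P a => by
    rw [dsc, Pi.sub_apply, x.hull'.2 P a, Pi.add_apply]; ring
  exact smq x.fk x.xtr.term x.onE x.hull'.1 (fun P a => d P a ▸ neg_nonpos.2 (E.δ_nonneg P))
    (by rw [d E x.onE, E.δ_self]) (x.on_hor hw)
    (by rw [x.dsc0 fld' hT (xa_of hT) hw]; norm_num) x.ff hp hw hΛ h hX hX' e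

variable {Λs B Γs : Fin 2 → BD K} {Es : Fin 2 → Option (Pl K)} {i : Fin 2}

theorem on_link (h : Link n R A Λs B Γs Es) (e : Es i = some E) (x : Xtr n Y ΓY (Λs i) E)
    (P : Pl K) : On n Y P ↔ dsc (n + 1) (R - A) P = 0 := by
  rw [h.zero i, x.on, e, Option.some_inj, eq_comm]

/-- **SMN** for the other side of a link -/
theorem smn_link (hT : Mm.TRM) (h : Link 3 R A Λs B Γs Es) (e : Es i = some E)
    (x : Xc (Λs i) Γ Y ΓY β E) (hp : pg (fld (res E (Λs i))) 2 ≠ 0) (j : Fin 2) (hX : Dsc Y X)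
    (hX' : Dsc (Λs j) X') (k : ∀ P, On 3 Y P → X P = X' P) {w : Pl E.κ}
    (hw : Hor (fld (res E (Λs i))) w) : res E X w = res E X' w :=
  smn hT x hp (h.mfs j).term.smp (fun P o => .of_term (h.mfs j).term fun a =>
    o ((on_link h e x.xtr P).2 ((h.zero j P).2 (.inl a)))) hX hX' k hw

/-- the improved nef part -/
theorem exists_zd (hK : FF K (n + 1)) (h : Link n R A Λs B Γs Es) (e : Es i = some E)
    (x : Xtr n Y ΓY (Λs i) E) : ∃ (ε : ℝ) (N : BD K), 0 < ε ∧ Dsc Y (R + ε • (R - ΓY)) ∧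
      Smp (R + ε • (R - ΓY) - N) ∧ (∀ P, On n Y P → N P = 0) ∧
      ∀ P, ¬ On n Y P → Ex n (R + ε • (R - ΓY) - N) P := by
  have t := x.term
  have dR : Dsc Y R := x.des.trans ((h.mfs i).des.trans (h.down i))
  have dX := dR.sub t.hull.1
  have z : ∀ P, On n Y P → (R - ΓY - A) P = 0 := fun P o => by
    have := (on_link h e x P).1 o
    simp only [dsc, Pi.sub_apply, t.hull.2 P o] at this ⊢
    linarith
  have le : 0 ≤ R - ΓY - A := sub_nonneg.2 (Pr.le_hull (c := 0) res' hK t.smp t.big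
    (by simpa using h.nef.nef) dX fun P o => (sub_eq_zero.1 (z P o)).ge)
  have c := sub_mem h.smp.car h.nef.car
  obtain ⟨ε, hε, k⟩ := Pr.klt_open hK c (sub_mem dX.car h.nef.car)
    fun P => lt_of_lt_of_le (by norm_num) (h.nn P)
  have k := k ε (abs_of_pos hε).le
  have q : R + ε • (R - ΓY) - (R - A + ε • (R - ΓY - A)) = (1 + ε) • A := by module
  have p : 0 < 1 + ε := by linarith
  have y : ∀ P, On n Y P → dsc (n + 1) (R - A + ε • (R - ΓY - A)) P = 0 := fun P o => by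
    rw [Pr.dsc_add_smul, z P o, (on_link h e x P).1 o, mul_zero, sub_zero]
  have dD := dR.add (dX.smul ε)
  have rp : ∀ P, ∃ G, Rep (R + ε • (R - ΓY)) G ∧ G P = ε * (R - ΓY - A) P := fun P => by
    obtain ⟨G, r, a⟩ := (h.smp.add (h.nef.smul hε.le)).exists_rep (finite_singleton P)
    refine ⟨_, (r.add ((Rep.refl le).smul hε.le)).congr ?_, by simp [a P rfl]⟩
    rw [show R + ε • (R - ΓY) - (R + ε • A + ε • (R - ΓY - A)) = 0 by module]
    exact zero_mem _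
  obtain ⟨-, -, zd⟩ := Pr.zd_adj hK t.big dD (add_mem c (Submodule.smul_mem _ _
    (sub_mem dX.car h.nef.car))) k (fun P o => (y P o).le) (q ▸ (h.nef.smul p.le).nef)
    (q ▸ h.big.smul p) (rp E).choose_spec.1.eff.psef
  generalize sig (R + ε • (R - ΓY)) = N at zd
  have n0 : ∀ P, On n Y P → N P = 0 := fun P o => by
    obtain ⟨G, r, a⟩ := rp P
    exact le_antisymm ((zd.fix G r P).trans (by rw [a, z P o, mul_zero])) (zd.nn P)
  have bg : Big (R + ε • (R - ΓY) - N) := ((h.big.smul hε).add_smp h.smp).mono fun P => by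
    obtain ⟨G, r, a⟩ := rp P
    have := zd.fix G r P
    simp only [a, Pi.add_apply, Pi.sub_apply, Pi.smul_apply, smul_eq_mul] at this ⊢
    linarith
  have on := fun P => Gs.on_zd (R := P) neg' hK Ba.mod Api.sep t.smp t.big dD zd bg
  refine ⟨ε, N, hε, dD, zd.smp, n0, fun P o => ⟨zd.smp, bg, fun a => o (on P a).1, ?_⟩⟩
  obtain ⟨G, r, a⟩ := (h.nef.smul p.le).exists_rep (finite_singleton P)
  have w : ∀ Q, dsc (n + 1) (R + ε • (R - ΓY) - N + (G - (1 + ε) • A)) Q =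
      dsc (n + 1) (R - A + ε • (R - ΓY - A)) Q + N Q - G Q := fun Q => by
    rw [← q]
    simp only [dsc, Pi.add_apply, Pi.sub_apply]
    ring
  refine ⟨_, (Dsc.refl zd.smp).add_prn r.prn, fun Q b => ?_, ?_⟩
  · rw [w, y Q (on Q b).1, (on Q b).2]
    simpa using r.nonneg Q
  · rw [w, a P rfl]
    linarith [k P, show 0 ≤ N P from zd.nn P]

/-- **NH** -/
theorem nh_of (hT : Mm.TRM) : NH := by
  intro K _ _ hK R A Λ B Γ E h i P Y ΓY e x c2 L hL hp hr
  obtain ⟨-, β, hu, -⟩ := x.anti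
  have y : Xc (Λ i) (Γ i) Y ΓY β P := ⟨hK, (h.mfs i).term, x, hu, c2⟩
  obtain rfl := xl_of (xq_of fld' hT (xa_of hT)) K _ _ Y ΓY β P y L hL hp hr
  obtain ⟨ε, N, hε, d, s, z, k⟩ := exists_zd hK h e x
  have q : (1 + ε⁻¹) • R - ΓY = ε⁻¹ • (R + ε • (R - ΓY)) := by
    rw [smul_add, smul_smul, inv_mul_cancel₀ hε.ne']; module
  refine ⟨1 + ε⁻¹, ε⁻¹ • (R + ε • (R - ΓY) - N), s.smul (inv_pos.2 hε).le, fun Q o => ?_,
    fun w hw => ?_⟩
  · rw [q, smul_sub, Pi.sub_apply, Pi.smul_apply _ N, z Q o, smul_zero, sub_zero]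
  · have := smn hT y hp s k d (.refl s) (fun Q o => by rw [Pi.sub_apply, z Q o, sub_zero]) hw
    rw [q, ← smul_sub, res_smul hK P _ (sub_mem d.car s.car), res_sub hK P d.car s.car,
      Pi.smul_apply, Pi.sub_apply, ← this, sub_self, smul_zero]

end Vale.Agent.P287D.Sm
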