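import Vale.Agent.P287D.Sm.Ut
import Vale.Agent.P287D.Ea.Cd
import Vale.Agent.P287D.Ad.Gen
import Vale.Agent.P287D.Va.Alg

/-!
# P287D, block SM: the residue field of a plt centre of codimension two
-/

open Set
open Vale.Agent.P297Z.Pl

noncomputable section

namespace Vale.Agent.P287D.Sm

open Ea Loq

variable {n : ℕ} {K : Type} [Field K] [Algebra ℂ K] {Y G Γ : BD K} {E P R : Pl K} {Q : Pl E.κ}
  {s : Finset K} {x : K}

theorem cz (c : CLe Y R P) (d : Dsc Y G) (h0 : 0 ≤ G) (z : G R = 0) : G P = 0 :=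
  le_antisymm (not_lt.1 fun a => (c.pos d h0 a).ne' z) (h0 P)

theorem fc_zero (hK : FF K (n + 1)) (f : Fc Y E Q R) (d : Dsc Y G) (h0 : 0 ≤ G) (e : G E = 0)
    (z : res E G Q = 0) : G R = 0 :=
  Ae.off_zero res' hK d.smp ⟨h0, d, e, z⟩ fun G r a b => b.trans_le (f.cmp G r a).1

theorem fc_res (hK : FF K (n + 1)) (f : Fc Y E Q R) (d : Dsc Y G) (h0 : 0 ≤ G) (z : G R = 0) :
    res E G Q = 0 := by
  obtain ⟨ε, hε, h1⟩ := d.exists_sub
  obtain ⟨G₁, r, y⟩ := h1.exists_rep (finite_singleton R)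
  have d1 : Dsc Y G₁ := ((Dsc.refl d.smp).sub (d.smul ε)).congr r.prn
  have b := r.add ((Rep.refl h0).smul hε.le)
  rw [sub_add_cancel] at b
  have e1 := cz f.cle d1 r.nonneg (y R rfl)
  have e2 := cz f.cle d h0 z
  have a := mt (f.cmp _ b (by simp [e1, e2])).2 (by simp [y R rfl, z])
  rw [res_add_smul hK E d1.car d.car] at a
  have p1 := res_nonneg hK E d1.car r.nonneg e1 Q
  have p2 := res_nonneg hK E d.car h0 e2 Q
  simp only [Pi.add_apply, Pi.smul_apply, smul_eq_mul, Pi.zero_apply, not_lt] at a p1 p2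
  nlinarith

theorem lq_eq (hd : Dsc Y (mx s)) (hx : x ∈ lq (mx s) R) (x0 : x ≠ 0) : ∃ G G', Dsc Y G ∧ 0 ≤ G ∧
    Dsc Y G' ∧ 0 ≤ G' ∧ G' R = 0 ∧ dv x = G - G' := by
  obtain ⟨m, w, ⟨w0, a, b⟩, c⟩ := hx
  exact ⟨dv (w * x) + (m : ℝ) • mx s, dv w + (m : ℝ) • mx s, (Dsc.dv hd.smp _).add (hd.smul _),
    c.resolve_left (mul_ne_zero w0 x0), (Dsc.dv hd.smp _).add (hd.smul _), a.resolve_left w0, b,
    by rw [dv_mul w0 x0]; abel⟩

theorem lq_mem (hd : Dsc Y (mx s)) (c : CLe Y R P) (hx : x ∈ lq (mx s) R) : x ∈ P.ring := by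
  by_cases x0 : x = 0
  · exact x0 ▸ zero_mem _
  obtain ⟨G, G', -, a, d, b, z, e⟩ := lq_eq hd hx x0
  have k := congrFun e P
  rw [Pi.sub_apply, cz c d b z, sub_zero, dv_apply] at k
  exact Cb.mem_ord (Int.cast_nonneg_iff.1 (k.symm ▸ a P : (0 : ℝ) ≤ _))

theorem unit (h : x ∈ P.ring) (h0 : P.rd x ≠ 0) : x ≠ 0 ∧ P.ord x = 0 := Aj.ord_lift h h0

theorem lq_res (hK : FF K (n + 1)) (hd : Dsc Y (mx s)) (f : Fc Y E Q R) (hx : x ∈ lq (mx s) R) :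
    E.rd x ∈ Q.ring := by
  by_cases r0 : E.rd x = 0
  · exact r0 ▸ zero_mem _
  obtain ⟨x0, o⟩ := unit (lq_mem hd f.cle hx) r0
  obtain ⟨G, G', d, a, d', b, z, e⟩ := lq_eq hd hx x0
  have k := congrFun e E
  rw [Pi.sub_apply, cz f.cle d' b z, sub_zero, dv_apply, o, Int.cast_zero] at k
  have l := congrFun (congrArg (res E) e) Q
  rw [res_dv_unit hK E x0 o, res_sub hK E d.car d'.car, Pi.sub_apply, fc_res hK f d' b z, sub_zero,
    dv_apply] at l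
  exact Cb.mem_ord (Int.cast_nonneg_iff.1 (l.symm ▸ res_nonneg hK E d.car a k.symm Q : (0 : ℝ) ≤ _))

theorem lq_inv (hd : Dsc Y (mx s)) (c : CLe Y R P) (c' : CLe Y P R) (hx : x ∈ lq (mx s) R)
    (h : P.rd x ≠ 0) : x ≠ 0 ∧ x⁻¹ ∈ lq (mx s) R := by
  obtain ⟨x0, o⟩ := unit (lq_mem hd c hx) h
  obtain ⟨G, G', d, a, d', b, z, e⟩ := lq_eq hd hx x0
  have k := congrFun e P
  rw [Pi.sub_apply, cz c d' b z, sub_zero, dv_apply, o, Int.cast_zero] at k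
  have l := congrFun e R
  rw [Pi.sub_apply, z, cz c' d a k.symm, sub_zero, dv_apply] at l
  exact ⟨x0, inv_mem hx x0 (by exact_mod_cast l)⟩

/-- at a plt point the functions on the divisor extend -/
theorem onto (h : AdH) (hK : FF K (n + 2)) (hY : Smp Y) (hb : Big Y) (hO : On (n + 1) Y E)
    (hΓ : Dsc Y Γ) (hB : Bdy (n + 1) Y Γ) (hE : dsc (n + 2) Γ E = -1) (hQ : On n (res E Y) Q)
    (hk : -1 < dsc (n + 1) (adj (n + 1) E Γ) Q) : ∃ s, Dsc Y (mx s) ∧ ∀ R, Fc Y E Q R →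
      ∀ u ∈ Q.ring, ∃ x ∈ lq (mx s) R, E.rd x = u := by
  have hκ := Gm.ff_κ E hK
  obtain ⟨s, ε, m₀, hs, hε, -, h2, hd, hm⟩ := Ae.setup hY hb hΓ
  refine ⟨s, hd, fun R f u hu => ?_⟩
  by_cases u0 : u = 0
  · exact ⟨0, zero_mem _, u0 ▸ Ae.rd_zero E⟩
  have h3 := res_smp hK E h2
  rw [res_sub_smul hK E (mx_mem_Car s) hY.car, res_mx hK] at h3
  have lo := lo_of h.balg h.ffs res' hκ (Ae.nz_rs hs) (res_smp hK E hY)
    ((on_iff_big hK E hY.nef).1 hO) hε h3 hQ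
  obtain ⟨b, hb1, hb2, hb3⟩ := h.lrc _ _ hκ _ (a1 _ K hK E Γ hΓ.car).1 Q
  have b0 : b Q = 0 := by
    rw [hb3, Int.cast_eq_zero, Int.ceil_eq_iff]
    exact ⟨by simpa using hk, by simpa using a3_of h n K hK Y E hY hb hO Γ hΓ hB hE Q hQ⟩
  obtain ⟨m, w, hm', w0, hw, e⟩ := lo.pole (Ae.nz_rs hs) (sub_mem hb1 (pld_carZ u)) m₀
  have hL : (m : ℝ) • mx s ∈ CarZ K := CarZ.nsmul (mx_mem_CarZ s) m
  have rL : res E ((m : ℝ) • mx s) = (m : ℝ) • mx (E.rs s) := by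
    rw [res_smul hK E _ (mx_mem_Car s), res_mx hK]
  obtain ⟨k, hk⟩ := CarZ.int hL E
  have key : ∀ v, v ≠ 0 → Sec (b + (m : ℝ) • mx (E.rs s)) v → ∃ g, g ≠ 0 ∧
      0 ≤ dv g + (m : ℝ) • mx s ∧ E.ord g = -k ∧ E.rd (g * E.t ^ k) = v := fun v v0 hv => by
    obtain ⟨g, g0, a, o, r, -⟩ := Ae.lift (β := 0) h hK hY hb hΓ.car hE (.zero hY) le_rfl
      (fun R hR _ => Ae.ceil_np (hB R hR)) hL (hd.smul _) hk (hm m hm').1 (hm m hm').2 v0
      (hv.mono fun R => by rw [rL]; simp only [Pi.add_apply]; linarith [hb2 R])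
    exact ⟨g, g0, by simpa using a, o, r⟩
  obtain ⟨g, g0, a, o, r⟩ := key w w0 (hw.mono fun R => by
    simp only [Pi.add_apply, Pi.sub_apply]; linarith [show 0 ≤ pld u R from pld_nonneg u R])
  obtain ⟨g', g0', a', o', r'⟩ := key _ (mul_ne_zero w0 u0)
    ((hw.mul (sec_pld u)).mono (le_of_eq (by abel)))
  have t0 := zpow_ne_zero k E.t_ne
  have z : ∀ g : K, g ≠ 0 → E.ord g = -k → E.ord (g * E.t ^ k) = 0 := fun g g0 o => by
    rw [E.ord_mul_t g0, o, neg_add_cancel]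
  refine ⟨g' / g, ⟨m, g, ⟨g0, .inr a, ?_⟩, by rw [mul_div_cancel₀ _ g0]; exact .inr a'⟩, ?_⟩
  · refine fc_zero hK f ((Dsc.dv hY g).add (hd.smul _)) a (by simp [dv_apply, o, hk]) ?_
    rw [res_add hK E (dv_mem_Car g) (CarZ.car hL), res_dv' hK E g0 (k := k) (by omega), r, rL]
    simpa [b0, pld_eq_zero.2 hu] using e
  · rw [← mul_div_mul_right g' g t0, On.rd_div E (Cb.mem_ord (z g' g0' o').ge)
      (Cb.mem_ord (z g g0 o).ge) (Cb.mem_ord (by rw [ord_inv, z g g0 o]; rfl)), r, r',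
      mul_div_cancel_left₀ _ w0]

/-- the residue map along an algebra homomorphism -/
def rA (P : Pl K) {O : Type} [CommRing O] [Algebra ℂ O] (j : O →ₐ[ℂ] K) (h : ∀ x, j x ∈ P.ring) :
    O →ₐ[ℂ] P.κ where
  toFun x := P.rd (j x)
  map_one' := by rw [map_one, Bm.rd_one]
  map_mul' x y := by rw [map_mul, Bm.rd_mul P (h x) (h y)]
  map_zero' := by rw [map_zero, Ae.rd_zero]
  map_add' x y := by rw [map_add, Bm.rd_add P (h x) (h y)]
  commutes' c := by rw [j.commutes, Bm.rd_const]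

/-- **NUC**: the residue field of a plt centre lies in the residue fields of the exceptional
places over it -/
theorem emb (h : AdH) (hF : FLD) (hK : FF K (n + 2)) (hY : Smp Y) (hb : Big Y)
    (hO : On (n + 1) Y E) (hΓ : Dsc Y Γ) (hB : Bdy (n + 1) Y Γ) (hE : dsc (n + 2) Γ E = -1)
    (hQ : On n (res E Y) Q) (hk : -1 < dsc (n + 1) (adj (n + 1) E Γ) Q) (f : Fc Y E Q R)
    (c : CLe Y R P) (o : ¬ On (n + 1) Y P) : Nonempty (Q.κ →ₐ[ℂ] P.κ) := by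
  obtain ⟨s, hd, k⟩ := onto h hK hY hb hO hΓ hB hE hQ hk
  have a := cd_fc In.hy hF n hK hY f
    ((hF.cen n _ (Gm.ff_κ E hK) _ Q Q (res_smp hK E hY)).1.1 hQ).ge
  obtain ⟨b, -, d⟩ := hF.cen _ K hK Y P P hY
  have e : cd Y P ≤ n + 1 := Vale.Agent.P287D.dim_le (Gm.ff_κ P hK) _
  have e' := mt b.2 o
  obtain ⟨u, v⟩ := (hF.cen _ K hK Y R P hY).2.2 c
  have c' := v (by omega)
  let ρ := rA E (lq (mx s) R).val fun x => lq_mem hd f.cle x.2
  let ρ' := rA Q ρ fun x => lq_res hK hd f x.2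
  refine ⟨AlgHom.liftOfSurjective ρ' (fun y => ?_) (rA P (lq (mx s) R).val fun x => lq_mem hd c x.2)
    fun x hx => by_contra fun q => ?_⟩
  · obtain ⟨u, hu, rfl⟩ := Bm.rd_surj Q y
    obtain ⟨x, hx, rfl⟩ := k R f u hu
    exact ⟨⟨x, hx⟩, rfl⟩
  · obtain ⟨x0, i⟩ := lq_inv hd c c' x.2 q
    have := map_mul ρ' x ⟨_, i⟩
    rw [show x * ⟨_, i⟩ = 1 from Subtype.ext (mul_inv_cancel₀ x0), map_one,
      show ρ' x = 0 from hx, zero_mul] at this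
    exact one_ne_zero this

theorem nu (h : AdH) (hF : FLD) (hK : FF K (n + 2)) (hY : Smp Y) (hb : Big Y)
    (hO : On (n + 1) Y E) (hΓ : Dsc Y Γ) (hB : Bdy (n + 1) Y Γ) (hE : dsc (n + 2) Γ E = -1)
    (hQ : On n (res E Y) Q) (hk : -1 < dsc (n + 1) (adj (n + 1) E Γ) Q) (f : Fc Y E Q R)
    {L : IntermediateField ℂ E.κ} (hL : FF L n) (hp : pg L n ≠ 0) (hor : Hor L Q) : Nu n Y R :=
  fun _ c o => let ⟨ι⟩ := emb h hF hK hY hb hO hΓ hB hE hQ hk f c o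
    ⟨L, inferInstance, inferInstance, hL, hp, ⟨ι.comp (On.rE Q L hor)⟩⟩

end Vale.Agent.P287D.Sm
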