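import Vale.Agent.P287D.Cb.Row
import Vale.Agent.P287D.Va.Fld
import Vale.Agent.P287D.Pb.Abh
import Vale.Agent.P287D.Pg.Uni
import Vale.Agent.P287D.Pr.Neg
import Vale.Agent.P287D.Ad.Sep
import Vale.Agent.P287D.Ba.Hy
import Vale.Agent.P287D.Ba.Mod
import Vale.Agent.P287D.Gm.Ffs

/-!
# P287D, block SM: small maps do not see centres which carry canonical forms
-/

open Set
open scoped Pointwise

noncomputable section

namespace Vale.Agent.P287D.Sm

variable {n : ℕ} {K F L : Type} [Field K] [Algebra ℂ K] [Field F] [Algebra ℂ F] [Field L]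
  [Algebra ℂ L] {Λ Λ' Y Γ N β : BD K} {P R : Pl K} {s u : Finset K}

theorem ind_cons (ι : L →ₐ[ℂ] F) {y : Fin n → L} (hy : AlgebraicIndependent ℂ y) {x : F}
    (hx : Transcendental ι.fieldRange x) :
    AlgebraicIndependent ℂ (Fin.cons x fun j => ι (y j) : Fin (n + 1) → F) := by
  have a : AlgebraicIndependent ℂ fun j => ι (y j) := hy.map' ι.injective
  have b : Transcendental (Algebra.adjoin ℂ (range fun j => ι (y j))) x := fun h => hx (by
    refine IsAlgebraic.tower_top_of_subalgebra_le (B := ι.fieldRange.toSubalgebra) ?_ h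
    exact Algebra.adjoin_le (by rintro _ ⟨j, rfl⟩; exact ⟨y j, rfl⟩))
  refine (algebraicIndependent_equiv' (finSuccEquiv n) ?_).2
    (AlgebraicIndependent.option_iff.2 ⟨a, b⟩)
  funext i
  refine Fin.cases ?_ (fun i => ?_) i <;> simp

/-- the product of a canonical form of the base and a differential -/
theorem form (hF : FF F (n + 1)) (hL : FF L n) (hp : pg L n ≠ 0) (ι : L →ₐ[ℂ] F) {x : F}
    (hx : Transcendental ι.fieldRange x) :
    ∃ w, w ≠ 0 ∧ Sec (cn F (n + 1) + (2 : ℝ) • pld x) w := by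
  obtain ⟨y, D, hD, e⟩ := Cb.exists_cn hL
  have hy := (Cb.jac_ne_iff hD y).1 (by rw [Cb.jac_self hD]; exact one_ne_zero)
  have : Nontrivial (H0 (cn L n)) := Module.nontrivial_of_finrank_pos (Nat.pos_of_ne_zero hp)
  obtain ⟨⟨h, hh⟩, h0⟩ := exists_ne (0 : H0 (cn L n))
  have h1 : h ≠ 0 := fun e => h0 (Subtype.ext e)
  have h2 := (mem_H0.1 hh).resolve_left h1
  have hz := ind_cons ι hy hx
  obtain ⟨f, f0, ef⟩ := Cb.kap_cn hF hz
  have i0 : ι h ≠ 0 := (map_ne_zero ι).2 h1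
  refine ⟨ι h * f, mul_ne_zero i0 f0, .inr fun P => ?_⟩
  have k : dv (ι h * f) + (cn F (n + 1) + (2 : ℝ) • pld x) =
      dv (ι h) + kap (Fin.cons x fun j => ι (y j) : Fin (n + 1) → F) + (2 : ℝ) • pld x := by
    rw [dv_mul i0 f0, ef]; abel
  rw [k]
  simp only [Pi.add_apply, Pi.smul_apply, smul_eq_mul, dv_apply, pld_apply, Pi.zero_apply]
  have m1 := le_max_left (0 : ℝ) (-(P.ord x : ℝ))
  have m2 := le_max_right (0 : ℝ) (-(P.ord x : ℝ))
  rcases hF.ok ι P with t | ⟨Q, l⟩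
  · have o : ∀ a, P.ord (ι a) = 0 := t.ord
    rw [o]
    rcases le_or_gt 0 (P.ord x) with c | c
    · have := Cb.kap_nonneg (P := P) hF (y := Fin.cons x fun j => ι (y j))
        (Fin.cases (Cb.mem_ord c) fun j => t (y j))
      push_cast
      linarith
    · have := Cb.sum_le_kap hF hz P
      rw [Fin.sum_univ_succ] at this
      simp only [Fin.cons_zero, Fin.cons_succ, o, Int.cast_zero, Finset.sum_const_zero] at this
      have c' : (P.ord x : ℝ) ≤ -1 := by exact_mod_cast Int.le_sub_one_of_lt c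
      push_cast
      linarith
  · have a := Cb.fib_cons (φ := (ι : L →+* F)) hL hF ι.commutes l hz
    have b : (P.ord (ι h) : ℝ) = P.ord (ι Q.t) * Q.ord h := by exact_mod_cast l.ord h
    have c : (1 : ℝ) ≤ P.ord (ι Q.t) := by exact_mod_cast l.e_pos
    have d := h2 Q
    simp only [Pi.add_apply, dv_apply, e, Pi.zero_apply] at d
    simp only [RingHom.coe_coe] at a
    nlinarith [mul_nonneg (zero_le_one.trans c) d]

/-- **UT**: the centre of an exceptional divisor with positive log discrepancy is algebraic over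
every subfield of codimension one which has a canonical form -/
theorem ut (hU : UNI) (hK : FF K (n + 2)) (hΛ : Smp Λ) (hb : Big Λ) (hd : Dsc Λ Γ)
    (hB : Bdy (n + 1) Λ Γ) (ho : ¬ On (n + 1) Λ P) (hk : -1 < dsc (n + 2) Γ P) (hL : FF L n)
    (hp : pg L n ≠ 0) (ι : L →ₐ[ℂ] P.κ) (hs : Dsc Λ (mx s)) {f g : P.κ} (hf : f ∈ P.rs s)
    (hg : g ∈ P.rs s) : IsAlgebraic ι.fieldRange (f / g) := by
  by_contra c
  have g0 : g ≠ 0 := fun e => c (by rw [e, div_zero]; exact isAlgebraic_zero)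
  obtain ⟨w, w0, hw⟩ := form (Gm.ff_κ P hK) hL hp ι c
  have a := pld_div_le (sec_of_mem hf) (sec_of_mem hg) g0
  refine mul_ne_zero w0 (pow_ne_zero 2 g0) (hU (n + 1) K hK Λ Γ ((2 : ℕ) • mx s) P hΛ hb hd hB ho hk
    (nsmul_mem (mx_mem_CarZ s) 2) (by rw [two_nsmul]; exact hs.add hs) _ ?_)
  rw [two_nsmul, res_add hK P (mx_mem_Car s) (mx_mem_Car s), res_mx hK,
    ← sec_add_dv (pow_ne_zero 2 g0), dv_pow]
  refine hw.mono fun Q => ?_
  have := a Q
  simp only [Pi.add_apply, Pi.smul_apply, smul_eq_mul, Nat.cast_ofNat] at this ⊢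
  linarith

theorem not_big (hB : Loq.BALG) (hF : FF F (n + 1)) (hL : FF L n) (ι : L →ₐ[ℂ] F)
    {a b : Finset F} (ha : Nz a) (hb : Nz b)
    (h : ∀ f ∈ a, ∀ g ∈ a, IsAlgebraic ι.fieldRange (f / g))
    (h' : ∀ f ∈ b, ∀ g ∈ b, IsAlgebraic ι.fieldRange (f / g)) : ¬ Big (mx a + mx b) := by
  classical
  rw [← mx_mul ha hb]
  intro c
  have e : rts (a * b) ≤ (algebraicClosure ι.fieldRange F).restrictScalars ℂ :=
    rts_le_iff.2 fun f hf g hg => by
      obtain ⟨f, m, f', m', rfl⟩ := Finset.mem_mul.1 hf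
      obtain ⟨g, k, g', k', rfl⟩ := Finset.mem_mul.1 hg
      rw [mul_div_mul_comm]
      exact mem_algebraicClosure_iff.2 ((h f m g k).mul (h' f' m' g' k'))
  obtain ⟨L', l1, l2, l3⟩ := Gm.exists_cld ι.fieldRange
  have e' : rts (a * b) ≤ L' := fun x hx => l2.of_le l1 (mem_algebraicClosure_iff.1 (e hx))
  have : Algebra.IsAlgebraic ι.fieldRange F := ⟨fun x => l3 x (l2.of_le e' (hB _ F hF _ c x))⟩
  have t := trdeg_add_eq ℂ ι.fieldRange (A := F)
  have z : Algebra.trdeg ι.fieldRange F = 0 := trdeg_eq_zero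
  have y : Algebra.trdeg ℂ ι.fieldRange = n :=
    (AlgEquiv.ofInjectiveField ι).trdeg_eq.symm.trans hL.trdeg
  rw [z, add_zero, hF.trdeg, y] at t
  have := Nat.cast_injective (R := Cardinal) t
  omega

/-- **LN**: a model over `V Y` without exceptional primes over the centre of `R` -/
theorem ln (hK : FF K (n + 1)) (hY : Smp Y) (hb : Big Y) (hd : Dsc Λ Y) (hN : Dsc Λ N)
    (h0 : ∀ P, On n Y P → N P ≤ 0) (h : ∀ P, CLe Y R P → ¬ On n Y P → ¬ On n Λ P) : N R ≤ 0 := by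
  have f : {P | On n Λ P ∧ 0 < N P}.Finite :=
    (Pr.fin_on res' hK hd.smp (hd.big hb) (Ba.isB_car hK hN.car)).subset fun P a => ⟨a.1, a.2.ne'⟩
  obtain ⟨G, r, g0, g⟩ := exists_rep_not_cle (P := R) f hY fun P a c =>
    h P c (fun o => (h0 P o).not_gt a.2) a.1
  obtain ⟨c, hc⟩ := (f.image fun P => N P / G P).bddAbove
  have := Pr.hart_le res' hK hd.smp (hd.big hb) hN ((hd.congr r.prn).smul (max c 0)) (fun P o => by
    rw [Pi.smul_apply, smul_eq_mul]
    rcases le_or_gt (N P) 0 with a | a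
    · exact a.trans (mul_nonneg (le_max_right _ _) (r.nonneg P))
    · exact (div_le_iff₀ (g P ⟨o, a⟩)).1 ((hc ⟨P, ⟨o, a⟩, rfl⟩).trans (le_max_left _ _))) R
  rwa [Pi.smul_apply, g0, smul_zero] at this

/-- `P` is exceptional over `V Λ` with a positive log discrepancy -/
def Ex (n : ℕ) (Λ : BD K) (P : Pl K) : Prop := Smp Λ ∧ Big Λ ∧ ¬ On n Λ P ∧
  ∃ Γ, Dsc Λ Γ ∧ Bdy n Λ Γ ∧ -1 < dsc (n + 1) Γ P

theorem Ex.of_term (h : Term n Λ Γ) (o : ¬ On n Λ P) : Ex n Λ P :=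
  ⟨h.smp, h.big, o, Γ, h.hull.1, fun Q a => by simp [dsc, h.hull.2 Q a],
    lt_trans (by norm_num) (h.pos P o)⟩

theorem not_on (hU : UNI) (hB : Loq.BALG) (hK : FF K (n + 2)) (h : Ex (n + 1) Λ P)
    (h' : Ex (n + 1) Λ' P) (hL : FF L n) (hp : pg L n ≠ 0) (ι : L →ₐ[ℂ] P.κ) :
    ¬ On (n + 1) (Λ + Λ') P := by
  obtain ⟨a, b, c, Γ, d, e, f⟩ := h
  obtain ⟨a', b', c', Γ', d', e', f'⟩ := h'
  obtain ⟨s, s1, hs⟩ := a.exists_ampOn
  obtain ⟨u, u1, hu⟩ := a'.exists_ampOn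
  have z : ∀ s : Finset K, 1 ∈ s → Nz (P.rs s) := fun s h => by
    classical
    obtain ⟨g, hg, g0, e⟩ := P.exists_mz ⟨1, h, one_ne_zero⟩
    exact ⟨_, Finset.mem_image_of_mem _ hg, Loq.rd_ne (mul_ne_zero g0 (zpow_ne_zero _ P.t_ne))
      (by rw [P.ord_mul_t g0, e, add_neg_cancel])⟩
  intro o
  refine not_big hB (Gm.ff_κ P hK) hL ι (z s s1) (z u u1)
    (fun _ x _ y => ut hU hK a b d e c f hL hp ι hs.1 x y)
    (fun _ x _ y => ut hU hK a' b' d' e' c' f' hL hp ι hu.1 x y) ?_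
  rw [← res_mx hK, ← res_mx hK, ← res_add hK P (mx_mem_Car s) (mx_mem_Car u)]
  exact (res_dsc hK P ((hs.dsc'.add_left (smp_mx u)).add (hu.dsc'.add_left' (smp_mx s)))).big
    ((on_iff_big hK P (a.add a').nef).1 o)

/-- the centre of `R` on `V Y` has codimension two and a canonical form -/
def Nu (n : ℕ) (Y : BD K) (R : Pl K) : Prop := ∀ P, CLe Y R P → ¬ On (n + 1) Y P →
  ∃ (L : Type) (_ : Field L) (_ : Algebra ℂ L), FF L n ∧ pg L n ≠ 0 ∧ Nonempty (L →ₐ[ℂ] P.κ)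

/-- **SM**: small maps are isomorphisms at the centres with canonical forms -/
theorem sm (hU : UNI) (hB : Loq.BALG) (hK : FF K (n + 2)) (hY : Term (n + 1) Y Γ)
    (hΛ : Smp Λ) (h : ∀ P, ¬ On (n + 1) Y P → Ex (n + 1) Λ P) (hR : Nu n Y R) {X X' : BD K}
    (hX : Dsc Y X) (hX' : Dsc Λ X') (e : ∀ P, On (n + 1) Y P → X P = X' P) : X R = X' R := by
  have k : ∀ P, CLe Y R P → ¬ On (n + 1) Y P → ¬ On (n + 1) (Y + Λ) P := fun P c o =>
    let ⟨_, _, _, a, b, ⟨ι⟩⟩ := hR P c o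
    not_on hU hB hK (.of_term hY o) (h P o) a b ι
  have d := (hX.add_left hΛ).sub (hX'.add_left' hY.smp)
  have a := ln hK hY.smp hY.big (.self_add hY.smp hΛ) d (fun P o => by simp [e P o]) k
  have b := ln hK hY.smp hY.big (.self_add hY.smp hΛ) d.neg (fun P o => by simp [e P o]) k
  simp only [Pi.neg_apply, Pi.sub_apply] at a b
  linarith

end Vale.Agent.P287D.Sm
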